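import Vale.Agent.P268.T.H327.HP

/-!
# P268, topological half: moving the wall of a hairpin, rigid letters are trivial (block B6a)

`wallD i₀ δ D c`: the hairpin data `D` with the wall at `c`, cut at `x i₀ = c - δ` and extended
constantly from there to the wall.  If over `c₁ ≤ x i₀ ≤ D.c` the hairpin is rigid, these data
form a continuous family for `c₁ + δ ≤ c ≤ D.c` (`hpFam_wall`).  Consequence `rigid_veq`: two
hairpin data which agree to the left of `c₁` and are rigid over `c₁ ≤ x i₀ ≤ c` have equivalent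
functions.
-/

set_option linter.unusedSectionVars false

namespace Vale.Agent.P268.T

open Set Filter Topology Metric

namespace H262

variable {T V κ ι : Type*} [TopologicalSpace T] [NormedAddCommGroup V] [InnerProductSpace ℝ V]
  [Fintype ι] [DecidableEq ι]

/-! ### Congruence -/

/-- The relevant values of two hairpin data agree. -/
structure SameH (i₀ : ι) (D D' : HData κ (ι → ℝ) V) : Prop where
  c : D.c = D'.c
  r0 : D.r0 = D'.r0
  b : ∀ a, ∀ x ∈ closedBall (0 : ι → ℝ) 1, D.b a x = D'.b a x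
  n : ∀ a, ∀ x ∈ closedBall (0 : ι → ℝ) 1, D.n a x = D'.n a x
  bk : ∀ x ∈ closedBall (0 : ι → ℝ) 1, x i₀ ≤ D.c → D.bk x = D'.bk x
  nk : ∀ x ∈ closedBall (0 : ι → ℝ) 1, x i₀ ≤ D.c → D.nk x = D'.nk x
  bt : ∀ x ∈ closedBall (0 : ι → ℝ) 1, x i₀ ≤ D.c → D.bt x = D'.bt x
  nt : ∀ x ∈ closedBall (0 : ι → ℝ) 1, x i₀ ≤ D.c → D.nt x = D'.nt x
  m : ∀ x ∈ closedBall (0 : ι → ℝ) 1, x i₀ = D.c → D.m x = D'.m x
  ph : ∀ x ∈ closedBall (0 : ι → ℝ) 1, x i₀ = D.c → D.ph x = D'.ph x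
  nw : ∀ x ∈ closedBall (0 : ι → ℝ) 1, x i₀ = D.c → D.nw x = D'.nw x

theorem SameH.symm {i₀ : ι} {D D' : HData κ (ι → ℝ) V} (h : SameH i₀ D D') : SameH i₀ D' D where
  c := h.c.symm
  r0 := h.r0.symm
  b := fun a x hx => (h.b a x hx).symm
  n := fun a x hx => (h.n a x hx).symm
  bk := fun x hx hc => (h.bk x hx (h.c ▸ hc)).symm
  nk := fun x hx hc => (h.nk x hx (h.c ▸ hc)).symm
  bt := fun x hx hc => (h.bt x hx (h.c ▸ hc)).symm
  nt := fun x hx hc => (h.nt x hx (h.c ▸ hc)).symm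
  m := fun x hx hc => (h.m x hx (h.c ▸ hc)).symm
  ph := fun x hx hc => (h.ph x hx (h.c ▸ hc)).symm
  nw := fun x hx hc => (h.nw x hx (h.c ▸ hc)).symm

theorem upd_mem {i₀ : ι} {x : ι → ℝ} (hx : x ∈ closedBall (0 : ι → ℝ) 1) {t : ℝ} (ht : |t| ≤ 1) :
    Function.update x i₀ t ∈ closedBall (0 : ι → ℝ) 1 := by
  rw [mem_closedBall_zero_iff] at hx ⊢
  rw [pi_norm_le_iff_of_nonneg zero_le_one]
  intro i
  by_cases h : i = i₀
  · subst h
    rw [Function.update_self, Real.norm_eq_abs]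
    exact ht
  · rw [Function.update_of_ne h]
    exact (norm_le_pi_norm x i).trans hx

theorem abs_coord_le {x : ι → ℝ} (hx : x ∈ closedBall (0 : ι → ℝ) 1) (i : ι) : |x i| ≤ 1 := by
  rw [mem_closedBall_zero_iff] at hx
  exact (norm_le_pi_norm x i).trans hx

theorem lf_mem {i₀ : ι} {c : ℝ} (hc : |c| ≤ 1) {x : ι → ℝ} (hx : x ∈ closedBall (0 : ι → ℝ) 1) :
    lf i₀ c x ∈ closedBall (0 : ι → ℝ) 1 := by
  refine upd_mem hx ?_
  have h1 := abs_le.mp (abs_coord_le hx i₀)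
  have h2 := abs_le.mp hc
  exact abs_le.mpr ⟨le_min h1.1 h2.1, (min_le_left _ _).trans h1.2⟩

theorem lf_le (i₀ : ι) (c : ℝ) (x : ι → ℝ) : lf i₀ c x i₀ ≤ c := by
  rw [lf, Function.update_self]; exact min_le_right _ _

theorem wl_mem {i₀ : ι} {c : ℝ} (hc : |c| ≤ 1) {x : ι → ℝ} (hx : x ∈ closedBall (0 : ι → ℝ) 1) :
    wl i₀ c x ∈ closedBall (0 : ι → ℝ) 1 := upd_mem hx hc

theorem wl_eq (i₀ : ι) (c : ℝ) (x : ι → ℝ) : wl i₀ c x i₀ = c := by
  rw [wl, Function.update_self]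

theorem SameH.cen {i₀ : ι} {D D' : HData κ (ι → ℝ) V} (h : SameH i₀ D D') (hc : |D.c| ≤ 1)
    (a : κ ⊕ Bool) {x : ι → ℝ} (hx : x ∈ closedBall (0 : ι → ℝ) 1) :
    D.cen i₀ a x = D'.cen i₀ a x := by
  rcases a with a | (_ | _)
  · exact h.b a x hx
  · show D.bt (lf i₀ D.c x) = D'.bt (lf i₀ D'.c x)
    rw [← h.c, h.bt _ (lf_mem hc hx) (lf_le _ _ _)]
  · show D.bk (lf i₀ D.c x) = D'.bk (lf i₀ D'.c x)
    rw [← h.c, h.bk _ (lf_mem hc hx) (lf_le _ _ _)]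

theorem SameH.nor {i₀ : ι} {D D' : HData κ (ι → ℝ) V} (h : SameH i₀ D D') (hc : |D.c| ≤ 1)
    (a : κ ⊕ Bool) {x : ι → ℝ} (hx : x ∈ closedBall (0 : ι → ℝ) 1) :
    D.nor i₀ a x = D'.nor i₀ a x := by
  rcases a with a | (_ | _)
  · exact h.n a x hx
  · show D.nt (lf i₀ D.c x) = D'.nt (lf i₀ D'.c x)
    rw [← h.c, h.nt _ (lf_mem hc hx) (lf_le _ _ _)]
  · show D.nk (lf i₀ D.c x) = D'.nk (lf i₀ D'.c x)
    rw [← h.c, h.nk _ (lf_mem hc hx) (lf_le _ _ _)]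

/-- The hairpin function only depends on the relevant values. -/
theorem SameH.HP_eq [Fintype κ] {i₀ : ι} {D D' : HData κ (ι → ℝ) V} (h : SameH i₀ D D')
    (hc : |D.c| ≤ 1) (e : V) (ε R M K : ℝ) : HP i₀ e ε R M K D = HP i₀ e ε R M K D' := by
  have key : hplates i₀ e (fun _ : Unit => ε) (fun _ => R) (fun _ => M) (fun _ => K)
      (fun _ => D) = hplates i₀ e (fun _ : Unit => ε) (fun _ => R) (fun _ => M) (fun _ => K)
      (fun _ => D') := by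
    have hw : ∀ x : ℝ × (ι → ℝ), wl i₀ D'.c (kap x) = wl i₀ D.c (kap x) := fun x => by rw [h.c]
    have hm : ∀ x : ℝ × (ι → ℝ), wl i₀ D.c (kap x) ∈ closedBall (0 : ι → ℝ) 1 :=
      fun x => wl_mem hc (kap_mem x)
    unfold hplates
    congr 1
    · funext τ a x
      rcases a with _ | a | _
      · rfl
      · show x.2 - ‖x.1‖ • D.cen i₀ a (kap x.1) = x.2 - ‖x.1‖ • D'.cen i₀ a (kap x.1)
        rw [h.cen hc a (kap_mem _)]
      · show foldw (D.dep i₀ K x.1) (D.ph (wl i₀ D.c (kap x.1)))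
            (x.2 - ‖x.1‖ • D.m (wl i₀ D.c (kap x.1))) =
          foldw (D'.dep i₀ K x.1) (D'.ph (wl i₀ D'.c (kap x.1)))
            (x.2 - ‖x.1‖ • D'.m (wl i₀ D'.c (kap x.1)))
        rw [hw, h.ph _ (hm _) (wl_eq _ _ _), h.m _ (hm _) (wl_eq _ _ _)]
        unfold HData.dep
        rw [h.c, h.r0]
    · funext τ a x
      rcases a with _ | a | _
      · rfl
      · exact h.nor hc a (kap_mem _)
      · show D.nw (wl i₀ D.c (kap x.1)) = D'.nw (wl i₀ D'.c (kap x.1))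
        rw [hw, h.nw _ (hm _) (wl_eq _ _ _)]
    · funext τ a x
      rcases a with _ | a | _
      · rfl
      · show D.dom i₀ M K a x.1 = D'.dom i₀ M K a x.1
        rcases a with a | a
        · rfl
        · show min _ (M * (-(K * wq i₀ D.c x.1) - 2 * D.r0 * ‖x.1‖)) =
            min _ (M * (-(K * wq i₀ D'.c x.1) - 2 * D'.r0 * ‖x.1‖))
          rw [h.c, h.r0]
      · show min _ (M * (K * wq i₀ D.c x.1 + 4 * D.r0 * ‖x.1‖)) =
            min _ (M * (K * wq i₀ D'.c x.1 + 4 * D'.r0 * ‖x.1‖))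
        rw [h.c, h.r0]
  unfold HP
  rw [key]

/-- Admissibility only depends on the relevant values. -/
theorem SameH.adm {i₀ : ι} {D D' : HData κ (ι → ℝ) V} (h : SameH i₀ D D')
    (hc : |D.c| ≤ 1) {ε R M K : ℝ} (hA : HAdm i₀ ε R M K D) : HAdm i₀ ε R M K D' where
  hε := hA.hε
  hR := hA.hR
  hM := hA.hM
  hMr := h.r0 ▸ hA.hMr
  hr := h.r0 ▸ hA.hr
  hK := hA.hK
  hb := fun a x hx => by rw [← h.cen hc a hx]; exact hA.hb a x hx
  hm := fun x hx hxc => by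
    rw [← h.c] at hxc
    rw [← h.m x hx hxc, ← h.r0]; exact hA.hm x hx hxc
  hd := fun a a' haa x hx hxc => by
    rw [← h.c] at hxc
    rw [← h.cen hc a hx, ← h.cen hc a' hx]; exact hA.hd a a' haa x hx hxc
  ht := fun a x hx hxc μ hμ => by
    rw [← h.c, ← h.r0] at hxc
    rw [← h.r0] at hμ
    rw [← h.c, ← h.b a x hx, ← h.m _ (wl_mem hc hx) (wl_eq _ _ _),
      ← h.ph _ (wl_mem hc hx) (wl_eq _ _ _)]
    exact hA.ht a x hx hxc μ hμ
  hg := fun x hx hx1 hx2 => by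
    rw [← h.c, ← h.r0] at hx1
    rw [← h.c] at hx2
    have h1 := wl_mem (i₀ := i₀) hc hx
    have h2 := wl_eq i₀ D.c x
    rw [← h.c, ← h.r0, ← h.bk x hx hx2, ← h.bt x hx hx2, ← h.nk x hx hx2, ← h.nt x hx hx2,
      ← h.m _ h1 h2, ← h.ph _ h1 h2, ← h.nw _ h1 h2]
    exact hA.hg x hx hx1 hx2
  h1 := by rw [← h.c, ← h.r0]; exact hA.h1

/-! ### Cutting at the wall -/

theorem lf_apply (i₀ : ι) (c : ℝ) (x : ι → ℝ) : lf i₀ c x i₀ = min (x i₀) c := by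
  rw [lf, Function.update_self]

theorem lf_of_le' {i₀ : ι} {c : ℝ} {x : ι → ℝ} (h : x i₀ ≤ c) : lf i₀ c x = x := by
  rw [lf, min_eq_left h, Function.update_eq_self]

theorem lf_of_ge {i₀ : ι} {c : ℝ} {x : ι → ℝ} (h : c ≤ x i₀) :
    lf i₀ c x = Function.update x i₀ c := by
  rw [lf, min_eq_right h]

theorem lf_wl {i₀ : ι} {c c' : ℝ} {x : ι → ℝ} (h : c ≤ x i₀) (h' : c ≤ c') :
    lf i₀ c (wl i₀ c' x) = lf i₀ c x := by
  rw [lf_of_ge h, lf_of_ge (by rw [wl_eq]; exact h'), wl, Function.update_idem]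

/-- Cutting preserves the faces of the cube. -/
theorem norm_lf {i₀ : ι} {c c' : ℝ} (hc1 : |c| < 1) (hc' : |c'| < 1)
    {x : ι → ℝ} (hx : ‖x‖ = 1) (hxc : x i₀ ≤ c) : ‖lf i₀ c' x‖ = 1 := by
  have hxm : x ∈ closedBall (0 : ι → ℝ) 1 := by rw [mem_closedBall_zero_iff]; exact hx.le
  have hm := lf_mem (i₀ := i₀) hc'.le hxm
  rw [mem_closedBall_zero_iff] at hm
  refine le_antisymm hm ?_
  obtain ⟨j, hj⟩ : ∃ j, |x j| = 1 := by
    by_contra hcon
    push Not at hcon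
    have h1 : ‖x‖ < 1 := by
      rw [pi_norm_lt_iff one_pos]
      intro i
      exact lt_of_le_of_ne (abs_coord_le hxm i) (hcon i)
    linarith
  by_cases hji : j = i₀
  · subst hji
    have h1 : x j = -1 := by
      rcases abs_eq (zero_le_one) |>.mp hj with h | h
      · have := (abs_lt.mp hc1).2
        linarith
      · exact h
    have h2 : lf j c' x j = -1 := by
      rw [lf_apply, h1]
      exact min_eq_left (abs_lt.mp hc').1.le
    have h3 := norm_le_pi_norm (lf j c' x) j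
    rw [h2, Real.norm_eq_abs, abs_neg, abs_one] at h3
    exact h3
  · have h2 : lf i₀ c' x j = x j := by
      rw [lf, Function.update_of_ne hji]
    have h3 := norm_le_pi_norm (lf i₀ c' x) j
    rw [h2, Real.norm_eq_abs, hj] at h3
    exact h3

/-! ### Moving the wall -/

/-- The data with the wall at `c`, constant over `c - δ ≤ x i₀ ≤ c`. -/
noncomputable def wallD (i₀ : ι) (δ : ℝ) (D : HData κ (ι → ℝ) V) (c : ℝ) :
    HData κ (ι → ℝ) V where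
  b := D.b
  n := D.n
  bk x := D.bk (lf i₀ (c - δ) x)
  nk x := D.nk (lf i₀ (c - δ) x)
  bt x := D.bt (lf i₀ (c - δ) x)
  nt x := D.nt (lf i₀ (c - δ) x)
  m x := (1 / 2 : ℝ) • (D.bk (lf i₀ (c - δ) x) + D.bt (lf i₀ (c - δ) x))
  ph x := (1 / (2 * D.r0)) • (D.bk (lf i₀ (c - δ) x) - D.bt (lf i₀ (c - δ) x))
  nw x := D.nk (lf i₀ (c - δ) x)
  r0 := D.r0
  c := c

/-- **Rigid** hairpin over `c₁ ≤ x i₀ ≤ D.c`. -/
structure Rig (i₀ : ι) (c₁ : ℝ) (D : HData κ (ι → ℝ) V) : Prop where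
  dist : ∀ x ∈ closedBall (0 : ι → ℝ) 1, c₁ ≤ x i₀ → x i₀ ≤ D.c → ‖D.bk x - D.bt x‖ = 2 * D.r0
  refl : ∀ x ∈ closedBall (0 : ι → ℝ) 1, c₁ ≤ x i₀ → x i₀ ≤ D.c →
    D.nt x = rfl' ((1 / (2 * D.r0)) • (D.bk x - D.bt x)) (D.nk x)
  /-- the other sheets avoid the segments over the same line -/
  seg : ∀ a, ∀ x ∈ closedBall (0 : ι → ℝ) 1, c₁ ≤ x i₀ → x i₀ ≤ D.c → ∀ t : ℝ, c₁ ≤ t →
    t ≤ D.c → ∀ μ : ℝ, |μ| ≤ 1 →
    D.b a x ≠ (1 / 2 : ℝ) • (D.bk (Function.update x i₀ t) + D.bt (Function.update x i₀ t)) +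
      (μ / 2) • (D.bk (Function.update x i₀ t) - D.bt (Function.update x i₀ t))

section

variable {i₀ : ι} {e : V} {D : HData κ (ι → ℝ) V} {c₁ δ : ℝ}

/-- The data with moving wall form a continuous family. -/
theorem hpFam_wall (h : HPData i₀ e D) (hR : Rig i₀ c₁ D) (hδ : 0 < δ)
    (hc₁ : -1 < c₁) {s : Set T} {c : T → ℝ} (hcc : ContinuousOn c s)
    (hc : ∀ τ ∈ s, c₁ + δ ≤ c τ ∧ c τ ≤ D.c) :
    HPFam s i₀ e (fun τ => wallD i₀ δ D (c τ)) := by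
  have hD1 : |D.c| < 1 := h.hc () (mem_univ _)
  have hr0 : 0 < D.r0 := h.hr () (mem_univ _)
  have hcabs : ∀ τ ∈ s, |c τ| < 1 := fun τ hτ => by
    have h2 := abs_lt.mp hD1
    obtain ⟨h3, h4⟩ := hc τ hτ
    exact abs_lt.mpr ⟨by linarith, by linarith⟩
  have hcabs' : ∀ τ ∈ s, |c τ - δ| < 1 := fun τ hτ => by
    have h2 := abs_lt.mp hD1
    obtain ⟨h3, h4⟩ := hc τ hτ
    exact abs_lt.mpr ⟨by linarith, by linarith⟩
  have mem : ∀ {x : ι → ℝ}, ‖x‖ ≤ 1 → x ∈ closedBall (0 : ι → ℝ) 1 := fun hx => by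
    rw [mem_closedBall_zero_iff]; exact hx
  have nmem : ∀ {x : ι → ℝ}, x ∈ closedBall (0 : ι → ℝ) 1 → ‖x‖ ≤ 1 := fun hx => by
    rwa [mem_closedBall_zero_iff] at hx
  have vm : ∀ τ ∈ s, ∀ x : ι → ℝ, ‖x‖ ≤ 1 → ‖lf i₀ (c τ - δ) x‖ ≤ 1 ∧
      lf i₀ (c τ - δ) x i₀ ≤ D.c := fun τ hτ x hx => by
    refine ⟨nmem (lf_mem (hcabs' τ hτ).le (mem hx)), ?_⟩
    exact (lf_le _ _ _).trans (by linarith [(hc τ hτ).2])
  -- the strip
  have st : ∀ τ ∈ s, ∀ x : ι → ℝ, ‖x‖ ≤ 1 → c τ - δ ≤ x i₀ →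
      c₁ ≤ lf i₀ (c τ - δ) x i₀ := fun τ hτ x hx hxc => by
    rw [lf_apply, min_eq_right hxc]
    linarith [(hc τ hτ).1]
  -- continuity of the cut
  have cv : ContinuousOn (fun q : T × (ι → ℝ) => ((), lf i₀ (c q.1 - δ) q.2))
      {q | q.1 ∈ s ∧ ‖q.2‖ ≤ 1} := by
    refine continuousOn_const.prodMk ?_
    rw [continuousOn_pi]
    intro i
    have c1 : ContinuousOn (fun q : T × (ι → ℝ) => c q.1)
        {q | q.1 ∈ s ∧ ‖q.2‖ ≤ 1} :=
      hcc.comp continuousOn_fst fun q hq => hq.1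
    by_cases hi : i = i₀
    · subst hi
      have e1 : (fun q : T × (ι → ℝ) => lf i (c q.1 - δ) q.2 i) =
          fun q => min (q.2 i) (c q.1 - δ) := by
        funext q; exact lf_apply _ _ _
      rw [e1]
      exact (((continuous_apply i).comp continuous_snd).continuousOn).inf
        (c1.sub continuousOn_const)
    · have e1 : (fun q : T × (ι → ℝ) => lf i₀ (c q.1 - δ) q.2 i) = fun q => q.2 i := by
        funext q; rw [lf, Function.update_of_ne hi]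
      rw [e1]
      exact ((continuous_apply i).comp continuous_snd).continuousOn
  have cw : ∀ {f : Unit × (ι → ℝ) → V} {S : Set (T × (ι → ℝ))}, ContinuousOn f
      {q | q.1 ∈ (univ : Set Unit) ∧ ‖q.2‖ ≤ 1 ∧ q.2 i₀ ≤ D.c} →
      (∀ q ∈ S, q.1 ∈ s ∧ ‖q.2‖ ≤ 1) →
      ContinuousOn (fun q : T × (ι → ℝ) => f ((), lf i₀ (c q.1 - δ) q.2)) S := by
    intro f S hf hS
    exact hf.comp (g := f) (f := fun q : T × (ι → ℝ) => ((), lf i₀ (c q.1 - δ) q.2))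
      (cv.mono fun q hq => hS q hq)
      fun q hq => ⟨mem_univ _, (vm q.1 (hS q hq).1 q.2 (hS q hq).2).1,
        (vm q.1 (hS q hq).1 q.2 (hS q hq).2).2⟩
  have alg1 : ∀ u v : V, u = (1 / 2 : ℝ) • (u + v) + D.r0 • ((1 / (2 * D.r0)) • (u - v)) := by
    intro u v
    rw [smul_smul]
    have e1 : D.r0 * (1 / (2 * D.r0)) = 1 / 2 := by field_simp
    rw [e1]
    module
  have alg2 : ∀ u v : V, v = (1 / 2 : ℝ) • (u + v) - D.r0 • ((1 / (2 * D.r0)) • (u - v)) := by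
    intro u v
    rw [smul_smul]
    have e1 : D.r0 * (1 / (2 * D.r0)) = 1 / 2 := by field_simp
    rw [e1]
    module
  -- distinctness near the wall
  have dis : ∀ τ ∈ s, ∀ x : ι → ℝ, ‖x‖ ≤ 1 → c τ - δ ≤ x i₀ → x i₀ ≤ c τ → ∀ a, ∀ μ : ℝ,
      |μ| ≤ 1 → D.b a x ≠ (1 / 2 : ℝ) • (D.bk (lf i₀ (c τ - δ) x) + D.bt (lf i₀ (c τ - δ) x)) +
        (μ / 2) • (D.bk (lf i₀ (c τ - δ) x) - D.bt (lf i₀ (c τ - δ) x)) := by
    intro τ hτ x hx h1 h2 a μ hμ
    rw [lf_of_ge h1]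
    have h3 := hc τ hτ
    exact hR.seg a x (mem hx) (by linarith) (by linarith) (c τ - δ) (by linarith) (by linarith)
      μ hμ
  exact {
    oth := {
      cb := fun a => by
        have := h.oth.cb a
        exact this.comp (g := fun q : Unit × (ι → ℝ) => D.b a q.2)
          (f := fun q : T × (ι → ℝ) => ((), q.2)) (continuousOn_const.prodMk continuousOn_snd)
          fun q hq => ⟨mem_univ _, hq.2⟩
      cn := fun a => by
        have := h.oth.cn a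
        exact this.comp (g := fun q : Unit × (ι → ℝ) => D.n a q.2)
          (f := fun q : T × (ι → ℝ) => ((), q.2)) (continuousOn_const.prodMk continuousOn_snd)
          fun q hq => ⟨mem_univ _, hq.2⟩
      nn := fun _ _ => h.oth.nn () (mem_univ _)
      inj := fun _ _ => h.oth.inj () (mem_univ _)
      bh := fun _ _ => h.oth.bh () (mem_univ _)
      nh := fun _ _ => h.oth.nh () (mem_univ _) }
    cc := hcc
    cr := continuousOn_const
    hc := hcabs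
    hr := fun _ _ => hr0
    cbk := cw h.cbk fun q hq => ⟨hq.1, hq.2.1⟩
    cnk := cw h.cnk fun q hq => ⟨hq.1, hq.2.1⟩
    cbt := cw h.cbt fun q hq => ⟨hq.1, hq.2.1⟩
    cnt := cw h.cnt fun q hq => ⟨hq.1, hq.2.1⟩
    cm := ((cw h.cbk fun q hq => ⟨hq.1, hq.2.1⟩).add
      (cw h.cbt fun q hq => ⟨hq.1, hq.2.1⟩)).const_smul (1 / 2 : ℝ)
    cph := ((cw h.cbk fun q hq => ⟨hq.1, hq.2.1⟩).sub
      (cw h.cbt fun q hq => ⟨hq.1, hq.2.1⟩)).const_smul (1 / (2 * D.r0))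
    cnw := cw h.cnk fun q hq => ⟨hq.1, hq.2.1⟩
    nnk := fun τ hτ x hx _ => h.nnk () (mem_univ _) _ (vm τ hτ x hx).1 (vm τ hτ x hx).2
    nnt := fun τ hτ x hx _ => h.nnt () (mem_univ _) _ (vm τ hτ x hx).1 (vm τ hτ x hx).2
    nph := fun τ hτ x hx hxc => by
      have hxc : x i₀ = c τ := hxc
      show ‖(1 / (2 * D.r0)) • (D.bk (lf i₀ (c τ - δ) x) - D.bt (lf i₀ (c τ - δ) x))‖ = 1
      rw [norm_smul, hR.dist _ (mem (vm τ hτ x hx).1) (st τ hτ x hx (by linarith))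
        (vm τ hτ x hx).2, Real.norm_eq_abs, abs_of_pos (by positivity)]
      field_simp
    nnw := fun τ hτ x hx _ => h.nnk () (mem_univ _) _ (vm τ hτ x hx).1 (vm τ hτ x hx).2
    hbk := fun τ hτ x hx hxc => h.hbk () (mem_univ _) _
      (norm_lf (hcabs τ hτ) (hcabs' τ hτ) hx hxc) (vm τ hτ x hx.le).2
    hbt := fun τ hτ x hx hxc => h.hbt () (mem_univ _) _
      (norm_lf (hcabs τ hτ) (hcabs' τ hτ) hx hxc) (vm τ hτ x hx.le).2
    hm := fun τ hτ x hx hxc => by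
      have hxc : x i₀ = c τ := hxc
      have h1 := h.hbk () (mem_univ _) _
        (norm_lf (hcabs τ hτ) (hcabs' τ hτ) hx hxc.le) (vm τ hτ x hx.le).2
      have h2 := h.hbt () (mem_univ _) _
        (norm_lf (hcabs τ hτ) (hcabs' τ hτ) hx hxc.le) (vm τ hτ x hx.le).2
      refine ⟨?_, ?_, h1.2⟩
      · show inner ℝ ((1 / 2 : ℝ) • (D.bk (lf i₀ (c τ - δ) x) + D.bt (lf i₀ (c τ - δ) x))) e = 0
        rw [real_inner_smul_left, inner_add_left, h1.1, h2.1]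
        ring
      · show inner ℝ ((1 / (2 * D.r0)) •
          (D.bk (lf i₀ (c τ - δ) x) - D.bt (lf i₀ (c τ - δ) x))) e = 0
        rw [real_inner_smul_left, inner_sub_left, h1.1, h2.1]
        ring
    dkt := fun τ hτ x hx _ => h.dkt () (mem_univ _) _ (vm τ hτ x hx).1 (vm τ hτ x hx).2
    dk := fun τ hτ x hx hxc a => by
      have hxc : x i₀ ≤ c τ := hxc
      show D.bk (lf i₀ (c τ - δ) x) ≠ D.b a x
      by_cases h1 : x i₀ ≤ c τ - δ
      · rw [lf_of_le' h1]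
        exact h.dk () (mem_univ _) x hx (by show x i₀ ≤ D.c; linarith [(hc τ hτ).2]) a
      · push Not at h1
        intro h2
        refine dis τ hτ x hx h1.le hxc a 1 (by simp) ?_
        rw [← h2]
        module
    dt := fun τ hτ x hx hxc a => by
      have hxc : x i₀ ≤ c τ := hxc
      show D.bt (lf i₀ (c τ - δ) x) ≠ D.b a x
      by_cases h1 : x i₀ ≤ c τ - δ
      · rw [lf_of_le' h1]
        exact h.dt () (mem_univ _) x hx (by show x i₀ ≤ D.c; linarith [(hc τ hτ).2]) a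
      · push Not at h1
        intro h2
        refine dis τ hτ x hx h1.le hxc a (-1) (by simp) ?_
        rw [← h2]
        module
    dtip := fun τ hτ x hx hxc a μ hμ => by
      have hxc : x i₀ = c τ := hxc
      have hμ : |μ| ≤ D.r0 := hμ
      have h1 := dis τ hτ x hx (by linarith) hxc.le a (μ / D.r0) (by
        rw [abs_div, abs_of_pos hr0, div_le_one hr0]
        exact hμ)
      intro h2
      apply h1
      have h3 : D.b a x =
          (1 / 2 : ℝ) • (D.bk (lf i₀ (c τ - δ) x) + D.bt (lf i₀ (c τ - δ) x)) +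
            μ • ((1 / (2 * D.r0)) • (D.bk (lf i₀ (c τ - δ) x) - D.bt (lf i₀ (c τ - δ) x))) := h2
      rw [h3, smul_smul]
      congr 2
      field_simp
    rig := ⟨δ, hδ, fun τ hτ x hx hx1 hx2 => by
      have hx1 : c τ - δ ≤ x i₀ := hx1
      have hw : lf i₀ (c τ - δ) (wl i₀ (c τ) x) = lf i₀ (c τ - δ) x :=
        lf_wl hx1 (by linarith)
      refine ⟨?_, ?_, ?_, ?_⟩
      · show D.bk (lf i₀ (c τ - δ) x) = (1 / 2 : ℝ) •
            (D.bk (lf i₀ (c τ - δ) (wl i₀ (c τ) x)) + D.bt (lf i₀ (c τ - δ) (wl i₀ (c τ) x))) +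
          D.r0 • ((1 / (2 * D.r0)) •
            (D.bk (lf i₀ (c τ - δ) (wl i₀ (c τ) x)) - D.bt (lf i₀ (c τ - δ) (wl i₀ (c τ) x))))
        rw [hw]
        exact alg1 _ _
      · show D.bt (lf i₀ (c τ - δ) x) = (1 / 2 : ℝ) •
            (D.bk (lf i₀ (c τ - δ) (wl i₀ (c τ) x)) + D.bt (lf i₀ (c τ - δ) (wl i₀ (c τ) x))) -
          D.r0 • ((1 / (2 * D.r0)) •
            (D.bk (lf i₀ (c τ - δ) (wl i₀ (c τ) x)) - D.bt (lf i₀ (c τ - δ) (wl i₀ (c τ) x))))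
        rw [hw]
        exact alg2 _ _
      · show D.nk (lf i₀ (c τ - δ) x) = D.nk (lf i₀ (c τ - δ) (wl i₀ (c τ) x))
        rw [hw]
      · show D.nt (lf i₀ (c τ - δ) x) = rfl' ((1 / (2 * D.r0)) •
            (D.bk (lf i₀ (c τ - δ) (wl i₀ (c τ) x)) - D.bt (lf i₀ (c τ - δ) (wl i₀ (c τ) x))))
          (D.nk (lf i₀ (c τ - δ) (wl i₀ (c τ) x)))
        rw [hw]
        exact hR.refl _ (mem (vm τ hτ x hx).1) (st τ hτ x hx hx1) (vm τ hτ x hx).2⟩ }

/-- At its own wall the cut data are the original data. -/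
theorem wall_self (h : HPData i₀ e D) : ∃ d > 0, ∀ δ, 0 < δ → δ ≤ d →
    SameH i₀ D (wallD i₀ δ D D.c) := by
  obtain ⟨d, hd, hrig⟩ := h.rig
  have hr0 : 0 < D.r0 := h.hr () (mem_univ _)
  have hD1 : |D.c| < 1 := h.hc () (mem_univ _)
  have nmem : ∀ {x : ι → ℝ}, x ∈ closedBall (0 : ι → ℝ) 1 → ‖x‖ ≤ 1 := fun hx => by
    rwa [mem_closedBall_zero_iff] at hx
  have hrig' : ∀ x ∈ closedBall (0 : ι → ℝ) 1, D.c - d ≤ x i₀ → x i₀ ≤ D.c →
      D.bk x = D.m (wl i₀ D.c x) + D.r0 • D.ph (wl i₀ D.c x) ∧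
      D.bt x = D.m (wl i₀ D.c x) - D.r0 • D.ph (wl i₀ D.c x) ∧
      D.nk x = D.nw (wl i₀ D.c x) ∧
      D.nt x = rfl' (D.ph (wl i₀ D.c x)) (D.nw (wl i₀ D.c x)) := fun x hx h1 h2 =>
    hrig () (mem_univ _) x (nmem hx) h1 h2
  refine ⟨min d (D.c + 1), lt_min hd (by linarith [(abs_lt.mp hD1).1]), fun δ hδ hδd => ?_⟩
  have hδ1 : δ ≤ d := hδd.trans (min_le_left _ _)
  have hδ2 : δ ≤ D.c + 1 := hδd.trans (min_le_right _ _)
  have hcd : |D.c - δ| ≤ 1 := abs_le.mpr ⟨by linarith, by linarith [(abs_lt.mp hD1).2]⟩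
  have key : ∀ x ∈ closedBall (0 : ι → ℝ) 1, x i₀ ≤ D.c →
      D.bk x = D.bk (lf i₀ (D.c - δ) x) ∧ D.bt x = D.bt (lf i₀ (D.c - δ) x) ∧
      D.nk x = D.nk (lf i₀ (D.c - δ) x) ∧ D.nt x = D.nt (lf i₀ (D.c - δ) x) := by
    intro x hx hxc
    by_cases h1 : x i₀ ≤ D.c - δ
    · rw [lf_of_le' h1]
      exact ⟨rfl, rfl, rfl, rfl⟩
    · push Not at h1
      have h3 : lf i₀ (D.c - δ) x i₀ = D.c - δ := by rw [lf_apply, min_eq_right h1.le]
      have h4 := hrig' x hx (by linarith) hxc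
      have h5 := hrig' (lf i₀ (D.c - δ) x) (lf_mem hcd hx) (by rw [h3]; linarith)
        (by rw [h3]; linarith)
      have h6 : wl i₀ D.c (lf i₀ (D.c - δ) x) = wl i₀ D.c x := by
        rw [wl, wl, lf, Function.update_idem]
      rw [h6] at h5
      exact ⟨h4.1.trans h5.1.symm, h4.2.1.trans h5.2.1.symm, h4.2.2.1.trans h5.2.2.1.symm,
        h4.2.2.2.trans h5.2.2.2.symm⟩
  have wall : ∀ x ∈ closedBall (0 : ι → ℝ) 1, x i₀ = D.c →
      D.bk x = D.m x + D.r0 • D.ph x ∧ D.bt x = D.m x - D.r0 • D.ph x ∧ D.nk x = D.nw x := by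
    intro x hx hxc
    have h4 := hrig' x hx (by linarith) hxc.le
    have h6 : wl i₀ D.c x = x := by rw [wl, ← hxc, Function.update_eq_self]
    rw [h6] at h4
    exact ⟨h4.1, h4.2.1, h4.2.2.1⟩
  exact {
    c := rfl
    r0 := rfl
    b := fun _ _ _ => rfl
    n := fun _ _ _ => rfl
    bk := fun x hx hxc => (key x hx hxc).1
    nk := fun x hx hxc => (key x hx hxc).2.2.1
    bt := fun x hx hxc => (key x hx hxc).2.1
    nt := fun x hx hxc => (key x hx hxc).2.2.2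
    m := fun x hx hxc => by
      obtain ⟨h1, h2, -⟩ := wall x hx hxc
      obtain ⟨k1, k2, -⟩ := key x hx hxc.le
      show D.m x = (1 / 2 : ℝ) • (D.bk (lf i₀ (D.c - δ) x) + D.bt (lf i₀ (D.c - δ) x))
      rw [← k1, ← k2, h1, h2]
      module
    ph := fun x hx hxc => by
      obtain ⟨h1, h2, -⟩ := wall x hx hxc
      obtain ⟨k1, k2, -⟩ := key x hx hxc.le
      show D.ph x = (1 / (2 * D.r0)) • (D.bk (lf i₀ (D.c - δ) x) - D.bt (lf i₀ (D.c - δ) x))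
      rw [← k1, ← k2, h1, h2]
      have e1 : D.m x + D.r0 • D.ph x - (D.m x - D.r0 • D.ph x) = (2 * D.r0) • D.ph x := by module
      rw [e1, smul_smul, one_div, inv_mul_cancel₀ (by positivity), one_smul]
    nw := fun x hx hxc => by
      show D.nw x = D.nk (lf i₀ (D.c - δ) x)
      rw [← (key x hx hxc.le).2.2.1]
      exact (wall x hx hxc).2.2.symm }

end

/-! ### Rigid letters are trivial -/

/-- Homotopy invariance of the hairpin form (block HOM). -/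
def HOM (κ ι : Type) [Fintype κ] [Fintype ι] [DecidableEq ι] (V : Type) [NormedAddCommGroup V]
    [InnerProductSpace ℝ V] (i₀ : ι) (e : V) : Prop :=
  ∀ (D : ℝ → HData κ (ι → ℝ) V), HPFam (Icc (0 : ℝ) 1) i₀ e D →
    ∀ {ε R M K ε' R' M' K' : ℝ}, HAdm i₀ ε R M K (D 0) → HAdm i₀ ε' R' M' K' (D 1) →
      VEq (HP i₀ e ε R M K (D 0)) (HP i₀ e ε' R' M' K' (D 1))

/-- Existence of admissible parameters. -/
def EXA (κ ι : Type) [Fintype κ] [Fintype ι] [DecidableEq ι] (V : Type) [NormedAddCommGroup V]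
    [InnerProductSpace ℝ V] (i₀ : ι) (e : V) : Prop :=
  ∀ (D : HData κ (ι → ℝ) V), HPData i₀ e D → ∃ ε R M K : ℝ, HAdm i₀ ε R M K D

section

variable {κ ι : Type} [Fintype κ] [Fintype ι] [DecidableEq ι] {V : Type} [NormedAddCommGroup V]
  [InnerProductSpace ℝ V] {i₀ : ι} {e : V}

/-- **The wall of a rigid hairpin may be moved.** -/
theorem wall_veq (hom : HOM κ ι V i₀ e) {D : HData κ (ι → ℝ) V} (h : HPData i₀ e D) {c₁ : ℝ}
    (hR : Rig i₀ c₁ D) {δ : ℝ} (hδ : 0 < δ) (hc₁ : c₁ + δ ≤ D.c) (hδ1 : -1 < c₁)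
    (hself : SameH i₀ D (wallD i₀ δ D D.c)) {ε R M K ε' R' M' K' : ℝ}
    (hA : HAdm i₀ ε R M K D) (hA' : HAdm i₀ ε' R' M' K' (wallD i₀ δ D (c₁ + δ))) :
    VEq (HP i₀ e ε R M K D) (HP i₀ e ε' R' M' K' (wallD i₀ δ D (c₁ + δ))) := by
  have hD1 : |D.c| < 1 := h.hc () (mem_univ _)
  let c : ℝ → ℝ := fun τ => (1 - τ) * D.c + τ * (c₁ + δ)
  have hc : ∀ τ ∈ Icc (0 : ℝ) 1, c₁ + δ ≤ c τ ∧ c τ ≤ D.c := by
    rintro τ ⟨h0, h1⟩
    have e1 : c τ - (c₁ + δ) = (1 - τ) * (D.c - (c₁ + δ)) := by simp only [c]; ring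
    have e2 : D.c - c τ = τ * (D.c - (c₁ + δ)) := by simp only [c]; ring
    have p1 : 0 ≤ (1 - τ) * (D.c - (c₁ + δ)) := mul_nonneg (by linarith) (by linarith)
    have p2 : 0 ≤ τ * (D.c - (c₁ + δ)) := mul_nonneg h0 (by linarith)
    constructor <;> linarith
  have hfam := hpFam_wall (T := ℝ) h hR hδ hδ1 (s := Icc 0 1) (c := c)
    (by simp only [c]; fun_prop) hc
  have c0 : c 0 = D.c := by simp only [c]; ring
  have c1 : c 1 = c₁ + δ := by simp only [c]; ring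
  have hA0 : HAdm i₀ ε R M K (wallD i₀ δ D (c 0)) := by rw [c0]; exact hself.adm hD1.le hA
  have hA1 : HAdm i₀ ε' R' M' K' (wallD i₀ δ D (c 1)) := by rw [c1]; exact hA'
  have key := hom (fun τ => wallD i₀ δ D (c τ)) hfam hA0 hA1
  simp only [c0, c1] at key
  rw [hself.HP_eq hD1.le e ε R M K]
  exact key

/-- **Rigid letters are trivial.**  Two hairpin data with the same wall, which agree to the left
of `c₁` and are rigid between `c₁` and the wall, have equivalent functions. -/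
theorem rigid_veq (hom : HOM κ ι V i₀ e) (hex : EXA κ ι V i₀ e) {D D' : HData κ (ι → ℝ) V}
    (h : HPData i₀ e D) (h' : HPData i₀ e D') {c₁ : ℝ} (hc0 : -1 < c₁) (hc₁ : c₁ < D.c)
    (hR : Rig i₀ c₁ D) (hR' : Rig i₀ c₁ D') (hc : D.c = D'.c) (hr : D.r0 = D'.r0)
    (hb : ∀ a, ∀ x ∈ closedBall (0 : ι → ℝ) 1, D.b a x = D'.b a x)
    (hn : ∀ a, ∀ x ∈ closedBall (0 : ι → ℝ) 1, D.n a x = D'.n a x)
    (hbk : ∀ x ∈ closedBall (0 : ι → ℝ) 1, x i₀ ≤ c₁ → D.bk x = D'.bk x)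
    (hnk : ∀ x ∈ closedBall (0 : ι → ℝ) 1, x i₀ ≤ c₁ → D.nk x = D'.nk x)
    (hbt : ∀ x ∈ closedBall (0 : ι → ℝ) 1, x i₀ ≤ c₁ → D.bt x = D'.bt x)
    (hnt : ∀ x ∈ closedBall (0 : ι → ℝ) 1, x i₀ ≤ c₁ → D.nt x = D'.nt x)
    {ε R M K ε' R' M' K' : ℝ} (hA : HAdm i₀ ε R M K D) (hA' : HAdm i₀ ε' R' M' K' D') :
    VEq (HP i₀ e ε R M K D) (HP i₀ e ε' R' M' K' D') := by
  have hD1 : |D.c| < 1 := h.hc () (mem_univ _)
  obtain ⟨d, hd, hs⟩ := wall_self h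
  obtain ⟨d', hd', hs'⟩ := wall_self h'
  set δ : ℝ := min (min d d') (D.c - c₁) with hδdef
  have hδ : 0 < δ := lt_min (lt_min hd hd') (by linarith)
  have h1 : δ ≤ d := (min_le_left _ _).trans (min_le_left _ _)
  have h2 : δ ≤ d' := (min_le_left _ _).trans (min_le_right _ _)
  have h3 : c₁ + δ ≤ D.c := by
    have : δ ≤ D.c - c₁ := min_le_right _ _
    linarith
  have hc1' : |c₁| ≤ 1 := by
    have := (abs_lt.mp hD1).2
    exact abs_le.mpr ⟨hc0.le, by linarith⟩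
  have hc1'' : |c₁ + δ| ≤ 1 := by
    have := (abs_lt.mp hD1).2
    exact abs_le.mpr ⟨by linarith, by linarith⟩
  -- the common data at the wall `c₁ + δ`
  have hcs : c₁ + δ - δ = c₁ := by ring
  have same : SameH i₀ (wallD i₀ δ D (c₁ + δ)) (wallD i₀ δ D' (c₁ + δ)) := by
    have hv : ∀ x ∈ closedBall (0 : ι → ℝ) 1,
        lf i₀ (c₁ + δ - δ) x ∈ closedBall (0 : ι → ℝ) 1 ∧ lf i₀ (c₁ + δ - δ) x i₀ ≤ c₁ :=
      fun x hx => by
        rw [hcs]
        exact ⟨lf_mem hc1' hx, lf_le _ _ _⟩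
    have ek : ∀ x ∈ closedBall (0 : ι → ℝ) 1,
        D.bk (lf i₀ (c₁ + δ - δ) x) = D'.bk (lf i₀ (c₁ + δ - δ) x) :=
      fun x hx => hbk _ (hv x hx).1 (hv x hx).2
    have et : ∀ x ∈ closedBall (0 : ι → ℝ) 1,
        D.bt (lf i₀ (c₁ + δ - δ) x) = D'.bt (lf i₀ (c₁ + δ - δ) x) :=
      fun x hx => hbt _ (hv x hx).1 (hv x hx).2
    exact {
      c := rfl
      r0 := hr
      b := hb
      n := hn
      bk := fun x hx _ => ek x hx
      nk := fun x hx _ => hnk _ (hv x hx).1 (hv x hx).2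
      bt := fun x hx _ => et x hx
      nt := fun x hx _ => hnt _ (hv x hx).1 (hv x hx).2
      m := fun x hx _ => by
        show (1 / 2 : ℝ) • (D.bk (lf i₀ (c₁ + δ - δ) x) + D.bt (lf i₀ (c₁ + δ - δ) x)) =
          (1 / 2 : ℝ) • (D'.bk (lf i₀ (c₁ + δ - δ) x) + D'.bt (lf i₀ (c₁ + δ - δ) x))
        rw [ek x hx, et x hx]
      ph := fun x hx _ => by
        show (1 / (2 * D.r0)) • (D.bk (lf i₀ (c₁ + δ - δ) x) - D.bt (lf i₀ (c₁ + δ - δ) x)) =
          (1 / (2 * D'.r0)) • (D'.bk (lf i₀ (c₁ + δ - δ) x) - D'.bt (lf i₀ (c₁ + δ - δ) x))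
        rw [ek x hx, et x hx, hr]
      nw := fun x hx _ => hnk _ (hv x hx).1 (hv x hx).2 }
  -- admissible parameters there
  have hfam1 : HPData i₀ e (wallD i₀ δ D (c₁ + δ)) :=
    hpFam_wall (T := Unit) h hR hδ hc0 (s := univ) (c := fun _ => c₁ + δ) continuousOn_const
      fun _ _ => ⟨le_rfl, h3⟩
  obtain ⟨ε₁, R₁, M₁, K₁, hA₁⟩ := hex _ hfam1
  have hA₁' : HAdm i₀ ε₁ R₁ M₁ K₁ (wallD i₀ δ D' (c₁ + δ)) := same.adm hc1'' hA₁
  have v1 := wall_veq hom h hR hδ h3 hc0 (hs δ hδ h1) hA hA₁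
  have v2 := wall_veq hom h' hR' hδ (hc ▸ h3) hc0 (hs' δ hδ h2) hA' hA₁'
  rw [← same.HP_eq hc1'' e ε₁ R₁ M₁ K₁] at v2
  exact v1.trans v2.symm

end

/-- Reflections are involutions. -/
theorem rfl'_rfl' {V : Type*} [NormedAddCommGroup V] [InnerProductSpace ℝ V] {p : V}
    (hp : ‖p‖ = 1) (y : V) : rfl' p (rfl' p y) = y := by
  unfold rfl'
  rw [inner_sub_left, real_inner_smul_left, real_inner_self_eq_norm_sq, hp]
  module

end H262

end Vale.Agent.P268.T
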