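import Vale.Agent.P268.T.H277.Props
import Vale.Agent.P268.T.H262.RI

/-!
# P268, topological half: removal of a letter next to the tip (block B6, R-I)
-/

namespace Vale.Agent.P268.T

open Set Filter Topology Metric

namespace H262

/-- A hairpin which over `-3/8 ≤ x 0 ≤ 0` consists of a constant sheet `t = T₀` with normal `h`
and of the sheet `k = T₀ + 2 r₀ G` with the reflected normal is rigid there. -/
theorem rig_of_turn {d : ℕ} {κ : Type} {h : Vk d} {D : HData κ (Pk d) (Vk d)}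
    (hc : D.c = 0) (hr : 0 < D.r0) {G : Pk d → Vk d} {T₀ : Vk d}
    (ht : ∀ x : Pk d, ‖x‖ ≤ 1 → x 0 ≤ 0 → D.bt x = T₀ ∧ D.nt x = h)
    (hk : ∀ x : Pk d, ‖x‖ ≤ 1 → -3 / 8 ≤ x 0 → x 0 ≤ 0 →
      D.bk x = T₀ + (2 * D.r0) • G x ∧ D.nk x = rfl' (G x) h)
    (hG : ∀ x : Pk d, ‖x‖ ≤ 1 → ‖G x‖ = 1)
    (hf : ∀ i (x : Pk d), ‖x‖ ≤ 1 → -3 / 8 ≤ x 0 → x 0 ≤ 0 → 2 * D.r0 < ‖D.b i x - T₀‖) :
    Rig (0 : Fin (d + 3)) (-3 / 8) D := by
  have nmem : ∀ {x : Pk d}, x ∈ closedBall (0 : Pk d) 1 → ‖x‖ ≤ 1 := fun hx => by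
    rwa [mem_closedBall_zero_iff] at hx
  have dif : ∀ x : Pk d, ‖x‖ ≤ 1 → -3 / 8 ≤ x 0 → x 0 ≤ 0 →
      D.bk x - D.bt x = (2 * D.r0) • G x := fun x hx h1 h2 => by
    rw [(hk x hx h1 h2).1, (ht x hx h2).1]; abel
  constructor
  · intro x hx h1 h2
    rw [hc] at h2
    rw [dif x (nmem hx) h1 h2, norm_smul, hG x (nmem hx), Real.norm_eq_abs,
      abs_of_pos (by positivity), mul_one]
  · intro x hx h1 h2
    rw [hc] at h2
    rw [dif x (nmem hx) h1 h2, smul_smul, one_div, inv_mul_cancel₀ (by positivity), one_smul,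
      (ht x (nmem hx) h2).2, (hk x (nmem hx) h1 h2).2, rfl'_rfl' (hG x (nmem hx))]
  · intro a x hx h1 h2 t h3 h4 μ hμ hcon
    rw [hc] at h2 h4
    have hy : Function.update x 0 t ∈ closedBall (0 : Pk d) 1 :=
      upd_mem hx (abs_le.mpr ⟨by linarith, by linarith⟩)
    have hy0 : Function.update x 0 t (0 : Fin (d + 3)) = t := Function.update_self _ _ _
    obtain ⟨e1, -⟩ := hk _ (nmem hy) (by rw [hy0]; exact h3) (by rw [hy0]; exact h4)
    obtain ⟨e2, -⟩ := ht _ (nmem hy) (by rw [hy0]; exact h4)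
    rw [e1, e2] at hcon
    have e3 : D.b a x - T₀ = ((1 + μ) * D.r0) • G (Function.update x 0 t) := by
      rw [hcon]; module
    have h5 := hf a x (nmem hx) h1 h2
    rw [e3, norm_smul, hG _ (nmem hy), Real.norm_eq_abs, mul_one, abs_mul, abs_of_pos hr] at h5
    have h6 : |1 + μ| ≤ 2 := by
      have := abs_le.mp hμ
      exact abs_le.mpr ⟨by linarith, by linarith⟩
    have h7 : |1 + μ| * D.r0 ≤ 2 * D.r0 := mul_le_mul_of_nonneg_right h6 hr.le
    linarith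

/-- **Removal of a letter next to the tip (R-I)**. -/
theorem blockRI (hom : BlockHPHom) (hex : BlockHPAdm) : BlockRI := by
  intro d κ _ D D' G T₀ e' hD hD' eb en hc hc' hr0 ht hw hl hz cG nG hG gG far ε R M K ε' R' M' K'
    hA hA'
  have nmem : ∀ {x : Pk d}, x ∈ closedBall (0 : Pk d) 1 → ‖x‖ ≤ 1 := fun hx => by
    rwa [mem_closedBall_zero_iff] at hx
  have hr : 0 < D.r0 := hD.hr () (mem_univ _)
  -- the constant direction
  have hx1 : ‖(fun _ => -1 : Pk d)‖ = 1 := by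
    rw [pi_norm_const, norm_neg, norm_one]
  have hge : G (fun _ => -1) = e' := gG _ hx1.le (Or.inl (by norm_num))
  have he1 : ‖e'‖ = 1 := by rw [← hge]; exact nG _ hx1.le
  have he2 : inner ℝ e' (frk d).h = 0 := by rw [← hge]; exact hG _ hx1
  have he3 : rfl' e' (frk d).h = (frk d).h := by
    rw [rfl', real_inner_comm, he2]; simp
  have R1 : Rig (0 : Fin (d + 3)) (-3 / 8) D := by
    refine rig_of_turn (h := (frk d).h) (G := fun _ => e') (T₀ := T₀) hc hr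
      (fun x hx h0 => ⟨(ht x hx h0).1, (ht x hx h0).2.1⟩)
      (fun x hx h1 h2 => ⟨(hz x hx h1 h2).1, ?_⟩) (fun _ _ => he1) far
    rw [he3]; exact (hz x hx h1 h2).2.1
  have R2 : Rig (0 : Fin (d + 3)) (-3 / 8) D' := by
    refine rig_of_turn (h := (frk d).h) (G := G) (T₀ := T₀) hc' (hr0 ▸ hr)
      (fun x hx h0 => (ht x hx h0).2.2)
      (fun x hx h1 h2 => ⟨?_, (hz x hx h1 h2).2.2.2⟩) nG fun i x hx h1 h2 => ?_
    · rw [hr0]; exact (hz x hx h1 h2).2.2.1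
    · rw [hr0, eb]; exact far i x hx h1 h2
  exact rigid_veq (fun D' hF {_ _ _ _ _ _ _ _} h1 h2 => hom d κ D' _ _ _ _ _ _ _ _ hF h1 h2)
    (fun D' h => hex d κ D' h) hD hD' (by norm_num) (by rw [hc]; norm_num) R1 R2
    (hc.trans hc'.symm) hr0.symm (fun a x _ => by rw [eb]) (fun a x _ => by rw [en])
    (fun x hx h1 => (hl x (nmem hx) h1).1.symm) (fun x hx h1 => (hl x (nmem hx) h1).2.symm)
    (fun x hx h1 => by
      have h2 := ht x (nmem hx) (by linarith)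
      rw [h2.1, h2.2.2.1])
    (fun x hx h1 => by
      have h2 := ht x (nmem hx) (by linarith)
      rw [h2.2.1, h2.2.2.2]) hA hA'

end H262

end Vale.Agent.P268.T
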